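import Vale.Agent.Lib.P184c.Amen

/-!
# P184: the l1-Bass trace vanishes at every undistorted element with amenable centraliser, and more
generally at every conjugacy class that is undistorted along a central direction, for all groups and
all idempotent matrices over l1(G)
-/

namespace Vale.Agent.Results.P184.AAAmenableCentralisers

open Vale.Agent.Lib.P184 Vale.Agent.Lib.P184c

universe u v w w'

/-- `g` is *undistorted along a central direction*: there are a subadditive function `l : G → ℝ`
(for instance a word length, or a displacement function of an isometric action) and a homomorphism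
`φ` from the centraliser of `g` to `(ℝ, +)` with `|φ z| ≤ l z` for all `z` and `φ g ≠ 0`. -/
def Undistorted {G : Type u} [Group G] (g : G) : Prop :=
  ∃ (l : G → ℝ) (φ : Subgroup.centralizer {g} → ℝ),
    (∀ x y, l (x * y) ≤ l x + l y) ∧ (∀ z w, φ (z * w) = φ z + φ w) ∧
    (∀ z : Subgroup.centralizer {g}, |φ z| ≤ l z) ∧
    φ ⟨g, Subgroup.mem_centralizer_iff.mpr (by simp)⟩ ≠ 0

/-- The centraliser of `g` is amenable and `g` is undistorted in the usual sense: for some
subadditive `l : G → ℝ` (a word length, a displacement function) and some `c > 0` one has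
`l (g ^ k) ≥ c k` for all `k`. -/
def AmenablyUndistorted {G : Type u} [Group G] (g : G) : Prop :=
  AmenableGrp (Subgroup.centralizer {g}) ∧
    ∃ (l : G → ℝ) (c : ℝ), (∀ x y, l (x * y) ≤ l x + l y) ∧ 0 < c ∧ ∀ k : ℕ, k * c ≤ l (g ^ k)

/-- Some quasimorphism `ψ` of `G` (defect `D`; `D = 0`: a homomorphism `G → ℝ`) is additive on the
centraliser of `g` and `ψ g ≠ 0`. -/
def QuasiDetected {G : Type u} [Group G] (g : G) : Prop :=
  ∃ (ψ : G → ℝ) (D : ℝ), (∀ x y, |ψ (x * y) - ψ x - ψ y| ≤ D) ∧
    (∀ z w : Subgroup.centralizer {g}, ψ (z * w) = ψ z + ψ w) ∧ ψ g ≠ 0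

/-- `G` acts by isometries on a (pseudo)metric space `X` carrying a 1-Lipschitz function `β` which
every element of the centraliser of `g` shifts by a constant, and `g` shifts it by a nonzero
constant (Busemann functions: `g` hyperbolic on a tree or a CAT(0) space). -/
def ShiftsBusemann {G : Type u} [Group G] (g : G) : Prop :=
  ∃ (X : Type v) (_ : PseudoMetricSpace X) (_ : MulAction G X) (β : X → ℝ) (p : X),
    (∀ (h : G) (x y : X), dist (h • x) (h • y) = dist x y) ∧
    (∀ x y, |β x - β y| ≤ dist x y) ∧
    (∀ (z : Subgroup.centralizer {g}) (x y : X),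
      β ((z : G) • x) - β x = β ((z : G) • y) - β y) ∧
    β (g • p) ≠ β p

/-- `lam` is an eigenvalue of the bounded operator `T` whose eigenspace is the line spanned by
`v ≠ 0`. -/
def IsSimpleEigen {𝕜 : Type w} {V : Type w'} [NontriviallyNormedField 𝕜] [NormedAddCommGroup V]
    [NormedSpace 𝕜 V] (T : V →L[𝕜] V) (v : V) (lam : 𝕜) : Prop :=
  v ≠ 0 ∧ T v = lam • v ∧ ∀ u : V, T u = lam • u → ∃ c : 𝕜, u = c • v

/-- In the representation `ρ`, `g` has an eigenvalue of absolute value `≠ 1` whose eigenspace is a
line. -/
def RepDetects {G : Type u} [Group G] {𝕜 : Type w} {V : Type w'} [NontriviallyNormedField 𝕜]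
    [NormedAddCommGroup V] [NormedSpace 𝕜 V] (ρ : G →* (V →L[𝕜] V)) (g : G) : Prop :=
  ∃ (v : V) (lam : 𝕜), IsSimpleEigen (ρ g) v lam ∧ ‖lam‖ ≠ 1

/-- In some representation of `G` by bounded operators on a normed space over a nontrivially normed
field, `g` has an eigenvalue of absolute value `≠ 1` whose eigenspace is a line. -/
def HasSimpleNonunitEigenvalue {G : Type u} [Group G] (g : G) : Prop :=
  ∃ (𝕜 : Type w) (V : Type w') (_ : NontriviallyNormedField 𝕜) (_ : NormedAddCommGroup V)
    (_ : NormedSpace 𝕜 V) (ρ : G →* (V →L[𝕜] V)), RepDetects ρ g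

/-- For every group `G`, every `q` and every idempotent `e ∈ M_q(ℓ¹(G))`: `τ_[g](e) = 0` as soon as
`g` is undistorted with amenable centraliser, or undistorted along a central direction, or detected
by a quasimorphism additive on its centraliser, or shifts a Busemann-type function of an isometric
action, or has a simple eigenvalue off the unit circle in a representation by bounded operators.
If every element of infinite order is of the first or second kind and `G` has finitely many
conjugacy classes of elements of finite order, the conclusion of the `ℓ¹`-Bass conjecture holds. -/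
theorem result (G : Type u) [Group G] (q : ℕ) (e : Fin q → Fin q → G → ℂ)
    (he : IsL1Idempotent e) :
    (∀ g : G, AmenablyUndistorted g ∨ Undistorted g ∨ QuasiDetected g ∨ ShiftsBusemann.{u, v} g ∨
      HasSimpleNonunitEigenvalue.{u, w, w'} g → hsCoeff e (ConjClasses.mk g) = 0) ∧
    ((∀ g : G, ¬ IsOfFinOrder g → AmenablyUndistorted g ∨ Undistorted g) →
      {C : ConjClasses G | ∀ g : G, ConjClasses.mk g = C → IsOfFinOrder g}.Finite →
      BassConclusion e) := by
  have h1 : ∀ g : G, Undistorted g → hsCoeff e (ConjClasses.mk g) = 0 := by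
    rintro g ⟨l, φ, hl, hφ, hφl, hg⟩
    exact hs_zero_of_length e he g l hl φ hφ hφl hg
  have h0 : ∀ g : G, AmenablyUndistorted g → hsCoeff e (ConjClasses.mk g) = 0 := by
    rintro g ⟨hZ, l, c, hl, hc, hg⟩
    exact hs_zero_of_amenable e he g hZ l hl c hc hg
  refine ⟨?_, ?_⟩
  · rintro g (h | h | ⟨ψ, D, hψ, hadd, hg⟩ | ⟨X, _, _, β, p, hiso, hβ, hZ, hg⟩ |
      ⟨𝕜, V, _, _, _, ρ, v, lam, ⟨hv, hlam, hline⟩, hg⟩)
    · exact h0 g h
    · exact h1 g h
    · exact hs_zero_of_quasi e he g ψ D hψ hadd hg
    · exact hs_zero_of_action e he g hiso β hβ hZ p hg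
    · exact hs_zero_of_simple_eigen e he g ρ v hv lam hlam hline hg
  · intro hall hfin
    refine ⟨hfin.toFinset, ?_, ?_⟩
    · intro C hC g hg
      exact (hfin.mem_toFinset.mp hC) g hg
    · intro C hC
      have hC' : ¬ ∀ g : G, ConjClasses.mk g = C → IsOfFinOrder g := fun h =>
        hC (hfin.mem_toFinset.mpr h)
      push Not at hC'
      obtain ⟨g, hg, hinf⟩ := hC'
      rw [← hg]
      exact (hall g hinf).elim (h0 g) (h1 g)

end Vale.Agent.Results.P184.AAAmenableCentralisers
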